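import Vale.Agent.P275JM.Filt

/-! P275: permanence properties of Lefschetz filtrations (triangles, retracts, duals). -/

namespace P275LF

open P275JM

variable {k V V' V'' : Type*} [Field k] [AddCommGroup V] [Module k V] [AddCommGroup V']
  [Module k V'] [AddCommGroup V''] [Module k V'']

/-- A filtered and strict map. -/
structure Str (f : V →ₗ[k] V') (F : ℤ → Submodule k V) (F' : ℤ → Submodule k V') : Prop where
  map : ∀ a, ∀ x ∈ F a, f x ∈ F' a
  str : ∀ a x, f x ∈ F' a → ∃ y ∈ F a, f y = f x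

/-- An exact triangle of strict maps. -/
structure Tr (f : V →ₗ[k] V') (g : V' →ₗ[k] V'') (δ : V'' →ₗ[k] V) (F : ℤ → Submodule k V)
    (F' : ℤ → Submodule k V') (F'' : ℤ → Submodule k V'') : Prop where
  sf : Str f F F'
  sg : Str g F' F''
  sδ : Str δ F'' F
  e1 : ∀ x, g x = 0 ↔ ∃ y, x = f y
  e2 : ∀ x, δ x = 0 ↔ ∃ y, x = g y
  e3 : ∀ x, f x = 0 ↔ ∃ y, x = δ y

variable {f : V →ₗ[k] V'} {g : V' →ₗ[k] V''} {δ : V'' →ₗ[k] V} {F : ℤ → Submodule k V}
  {F' : ℤ → Submodule k V'} {F'' : ℤ → Submodule k V''} {e : Module.End k V}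
  {e' : Module.End k V'} {e'' : Module.End k V''} {r s : ℤ}

theorem Str.re (h : Str f F F') (φ : ℤ → ℤ) : Str f (fun a => F (φ a)) fun a => F' (φ a) :=
  ⟨fun _ => h.map _, fun _ => h.str _⟩

theorem Tr.re (h : Tr f g δ F F' F'') (φ : ℤ → ℤ) :
    Tr f g δ (fun a => F (φ a)) (fun a => F' (φ a)) fun a => F'' (φ a) :=
  ⟨h.sf.re φ, h.sg.re φ, h.sδ.re φ, h.e1, h.e2, h.e3⟩

theorem Tr.rot (h : Tr f g δ F F' F'') : Tr g δ f F' F'' F := ⟨h.sg, h.sδ, h.sf, h.e2, h.e3, h.e1⟩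

/-- exactness of the graded triangle -/
theorem Tr.gr (h : Tr f g δ F F' F'') {a b : ℤ} (hab : F' b ≤ F' a) {x : V'} (hx : x ∈ F' a)
    (hg : g x ∈ F'' b) : ∃ y ∈ F a, x - f y ∈ F' b := by
  obtain ⟨x', h1, h2⟩ := h.sg.str b x hg
  obtain ⟨y, hy⟩ := (h.e1 (x - x')).1 (by rw [map_sub, h2, sub_self])
  obtain ⟨y', h3, h4⟩ := h.sf.str a y (hy ▸ sub_mem hx (hab h1))
  exact ⟨y', h3, by rw [h4, ← hy, sub_sub_cancel]; exact h1⟩

theorem comm_pow (h : ∀ x, f (e x) = e' (f x)) (j : ℕ) (x : V) :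
    f ((e ^ j) x) = (e' ^ j) (f x) := by
  induction j with
  | zero => rfl
  | succ j ih => rw [pow_succ', pow_succ', Module.End.mul_apply, Module.End.mul_apply, h, ih]

theorem up_pow (up : ∀ a, ∀ v ∈ F a, e v ∈ F (a + 2)) (j : ℕ) {a b : ℤ} (hb : b = a + 2 * j)
    {v : V} (hv : v ∈ F a) : (e ^ j) v ∈ F b := by
  induction j generalizing b with
  | zero => simpa [hb] using hv
  | succ j ih =>
    rw [pow_succ', Module.End.mul_apply, show b = a + 2 * j + 2 by push_cast at hb; omega]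
    exact up _ _ (ih rfl)

/-- **Two out of three.** -/
theorem lef_tri (t : Tr f g δ F F' F'') (cf : ∀ x, f (e x) = e' (f x))
    (cg : ∀ x, g (e' x) = e'' (g x)) (cδ : ∀ x, δ (e'' x) = e (δ x)) (mono : Monotone F')
    (up : ∀ a, ∀ v ∈ F' a, e' v ∈ F' (a + 2)) (h : Lef e r F) (h'' : Lef e'' r F'') :
    Lef e' r F' where
  mono := mono
  bot := by
    obtain ⟨a, ha⟩ := h.bot
    obtain ⟨b, hb⟩ := h''.bot
    refine ⟨min a b, eq_bot_iff.2 fun x hx => ?_⟩
    have h1 := h''.cast (t.sg.map _ _ hx) (min_le_right a b)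
    rw [hb, Submodule.mem_bot] at h1
    obtain ⟨y, rfl⟩ := (t.e1 x).1 h1
    obtain ⟨y', h2, h3⟩ := t.sf.str _ y hx
    have h4 := h.cast h2 (min_le_left a b)
    rw [ha, Submodule.mem_bot] at h4
    rw [← h3, h4, map_zero]
    exact zero_mem _
  top v := by
    obtain ⟨b, hb⟩ := h''.top (g v)
    obtain ⟨x, h1, h2⟩ := t.sg.str b v hb
    obtain ⟨y, hy⟩ := (t.e1 (v - x)).1 (by rw [map_sub, h2, sub_self])
    obtain ⟨a, ha⟩ := h.top y
    refine ⟨max a b, ?_⟩
    rw [← sub_add_cancel v x, hy]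
    exact add_mem (mono (le_max_left a b) (t.sf.map _ _ ha)) (mono (le_max_right a b) h1)
  up := up
  inj j v hv he := by
    have h1 := h''.inj j _ (t.sg.map _ _ hv) (comm_pow cg j v ▸ t.sg.map _ _ he)
    obtain ⟨y, hy, h2⟩ := t.gr (mono (by omega)) hv h1
    have h3 : f ((e ^ j) y) ∈ F' (r + j - 1) := by
      rw [comm_pow cf, ← sub_sub_cancel v (f y), map_sub]
      exact sub_mem he (up_pow up j (by omega) h2)
    obtain ⟨z, hz, h4⟩ := t.rot.rot.gr (a := r + j) (h.mono (by omega))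
      (up_pow h.up j (by omega) hy) h3
    obtain ⟨z', hz', h5⟩ := h''.surj j z hz
    have h6 := h.inj j (y - δ z') (sub_mem hy (t.sδ.map _ _ hz')) (by
      rw [map_sub, ← comm_pow cδ, ← sub_add_sub_cancel _ (δ z), ← map_sub δ]
      exact add_mem h4 (t.sδ.map _ _ h5))
    have h7 := t.sf.map _ _ h6
    rw [map_sub, (t.e3 _).2 ⟨z', rfl⟩, sub_zero] at h7
    simpa using add_mem h2 h7
  surj j v hv := by
    obtain ⟨z, hz, h1⟩ := h''.surj j _ (t.sg.map _ _ hv)
    have h2 := h.inj j _ (t.sδ.map _ _ hz) (by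
      have := neg_mem (t.sδ.map _ _ h1)
      rwa [map_sub, (t.e2 _).2 ⟨v, rfl⟩, zero_sub, neg_neg, comm_pow cδ] at this)
    obtain ⟨x, hx, h3⟩ := t.rot.gr (h''.mono (by omega)) hz h2
    obtain ⟨y, hy, h4⟩ := t.gr (a := r + j) (b := r + j - 1) (mono (by omega))
      (sub_mem hv (up_pow up j (by omega) hx)) (by
        rw [map_sub, comm_pow cg, ← sub_add_sub_cancel _ ((e'' ^ j) z), ← map_sub (e'' ^ j)]
        exact add_mem h1 (up_pow h''.up j (by omega) h3))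
    obtain ⟨y', hy', h5⟩ := h.surj j y hy
    refine ⟨x + f y', add_mem hx (t.sf.map _ _ hy'), ?_⟩
    have h6 := add_mem h4 (t.sf.map _ _ h5)
    rw [map_sub, comm_pow cf] at h6
    rw [map_add]
    convert h6 using 1
    abel

/-- **Retracts**, with a shift. -/
theorem lef_retract {G : V →ₗ[k] V'} {G' : V' →ₗ[k] V} (hG : ∀ a, ∀ x ∈ F a, G x ∈ F' (a + s))
    (hG' : ∀ a, ∀ x ∈ F' (a + s), G' x ∈ F a) (h1 : ∀ x, G' (G x) = x)
    (c : ∀ x, G (e x) = e' (G x)) (c' : ∀ x, G' (e' x) = e (G' x)) (h : Lef e' (r + s) F') :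
    Lef e r F := by
  have key : ∀ a x, G x ∈ F' (a + s) → x ∈ F a := fun a x hx => h1 x ▸ hG' a _ hx
  refine ⟨fun a b hab x hx => key _ _ (h.cast (hG _ _ hx) (by omega)), ?_, fun v => ?_,
    fun a v hv => key _ _ ?_, fun j v hv he => key _ _ ?_, fun j v hv => ?_⟩
  · obtain ⟨a, ha⟩ := h.bot
    refine ⟨a - s, eq_bot_iff.2 fun x hx => ?_⟩
    have h2 := hG _ _ hx
    rw [sub_add_cancel, ha, Submodule.mem_bot] at h2
    rw [← h1 x, h2, map_zero]
    exact zero_mem _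
  · obtain ⟨a, ha⟩ := h.top (G v)
    exact ⟨a - s, key _ _ (by rwa [sub_add_cancel])⟩
  · rw [c]
    exact h.cast (h.up _ _ (hG _ _ hv)) (by omega)
  · exact h.cast (h.inj j _ (h.cast (hG _ _ hv) (by omega))
      (comm_pow c j v ▸ h.cast (hG _ _ he) (by omega))) (by omega)
  · obtain ⟨w, hw, h2⟩ := h.surj j _ (h.cast (hG _ _ hv) (by omega))
    refine ⟨G' w, hG' _ _ (h.cast hw (by omega)), ?_⟩
    have h3 := hG' (r + j - 1) _ (h.cast h2 (by omega))
    rwa [map_sub, h1, comm_pow c'] at h3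

/-- Transport along a surjection for which the filtration is the preimage. -/
theorem lef_of_surj {Φ : V →ₗ[k] V'} (hs : Function.Surjective Φ)
    (hF : ∀ a x, Φ x ∈ F' (a + s) ↔ x ∈ F a) (c : ∀ x, Φ (e x) = e' (Φ x)) (h : Lef e r F) :
    Lef e' (r + s) F' := by
  have key : ∀ a b x, a = b + s → (Φ x ∈ F' a ↔ x ∈ F b) := fun a b x hab => hab ▸ hF b x
  refine ⟨fun a b hab x hx => ?_, ?_, fun v => ?_, fun a v hv => ?_, fun j v hv he => ?_,
    fun j v hv => ?_⟩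
  · obtain ⟨x, rfl⟩ := hs x
    exact (key b (b - s) x (by omega)).2 (h.cast ((key a (a - s) x (by omega)).1 hx) (by omega))
  · obtain ⟨a, ha⟩ := h.bot
    refine ⟨a + s, eq_bot_iff.2 fun x hx => ?_⟩
    obtain ⟨x, rfl⟩ := hs x
    rw [hF, ha, Submodule.mem_bot] at hx
    rw [hx, map_zero]
    exact zero_mem _
  · obtain ⟨v, rfl⟩ := hs v
    obtain ⟨a, ha⟩ := h.top v
    exact ⟨a + s, (hF _ _).2 ha⟩
  · obtain ⟨v, rfl⟩ := hs v
    rw [← c]
    exact (key _ _ _ (by omega)).2 (h.up _ _ ((key a (a - s) v (by omega)).1 hv))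
  · obtain ⟨v, rfl⟩ := hs v
    rw [← comm_pow c] at he
    exact (key _ _ _ (by omega)).2 (h.inj j v ((key _ _ _ (by omega)).1 hv)
      ((key _ _ _ (by omega)).1 he))
  · obtain ⟨v, rfl⟩ := hs v
    obtain ⟨w, hw, h2⟩ := h.surj j v ((key _ _ _ (by omega)).1 hv)
    refine ⟨Φ w, (key _ _ _ (by omega)).2 hw, ?_⟩
    rw [← comm_pow c, ← map_sub]
    exact (key _ _ _ (by omega)).2 h2

theorem lef_top (h : Lef e r F) : ∃ b, F b = ⊤ := by
  obtain ⟨a, ha⟩ := h.bot
  have h1 : ∀ n : ℕ, ∀ v ∈ F (r + ((r - a).toNat + n : ℕ) - 1), v ∈ F (r + (r - a).toNat - 1) := by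
    intro n
    induction n with
    | zero => exact fun v hv => hv
    | succ n ih =>
      intro v hv
      obtain ⟨w, hw, h2⟩ := h.surj ((r - a).toNat + n) v (h.cast hv (by push_cast; omega))
      have h3 := h.cast hw (b := a) (by push_cast; omega)
      rw [ha, Submodule.mem_bot] at h3
      rw [h3, map_zero, sub_zero] at h2
      exact ih v h2
  refine ⟨r + (r - a).toNat - 1, eq_top_iff.2 fun v _ => ?_⟩
  obtain ⟨b, hb⟩ := h.top v
  exact h1 (b - a - (r - a) + 1).toNat v (h.cast hb (by push_cast; omega))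

theorem dual_pow (e : Module.End k V) (j : ℕ) (φ : Module.Dual k V) (v : V) :
    ((show Module.End k (Module.Dual k V) from e.dualMap) ^ j) φ v = φ ((e ^ j) v) := by
  induction j generalizing v with
  | zero => rfl
  | succ j ih => rw [pow_succ', pow_succ, Module.End.mul_apply, Module.End.mul_apply, ← ih]; rfl

/-- **Duals.** -/
theorem lef_dual (h : Lef e r F) (s : ℤ) :
    Lef e.dualMap (s - r) fun a => (F (s - a - 1)).dualAnnihilator := by
  refine ⟨fun a b hab => Submodule.dualAnnihilator_anti (h.mono (by omega)), ?_, fun φ => ?_,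
    fun a φ hφ => ?_, fun j φ hφ he => ?_, fun j φ hφ => ?_⟩
  · obtain ⟨b, hb⟩ := lef_top h
    exact ⟨s - b - 1, by rw [show s - (s - b - 1) - 1 = b by omega, hb]; simp⟩
  · obtain ⟨a, ha⟩ := h.bot
    exact ⟨s - a - 1, by rw [show s - (s - a - 1) - 1 = a by omega, ha]; simp⟩
  · rw [Submodule.mem_dualAnnihilator] at hφ ⊢
    exact fun w hw => hφ _ (h.cast (h.up _ _ hw) (by omega))
  · rw [Submodule.mem_dualAnnihilator] at hφ he ⊢
    intro v hv
    obtain ⟨w, hw, h1⟩ := h.surj j v (h.cast hv (by omega))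
    have h2 := hφ _ (h.cast h1 (by omega))
    have h3 := he _ (h.cast hw (by omega))
    rw [dual_pow] at h3
    rwa [map_sub, h3, sub_zero] at h2
  · rw [Submodule.mem_dualAnnihilator] at hφ
    have h1 : φ ∘ₗ (F (r - j)).subtype ∈ LinearMap.range
        ((F (r + j - 1)).mkQ ∘ₗ (e ^ j) ∘ₗ (F (r - j)).subtype).dualMap := by
      rw [LinearMap.range_dualMap_eq_dualAnnihilator_ker, Submodule.mem_dualAnnihilator]
      exact fun w hw => hφ _ (h.cast (h.inj j _ w.2 ((Submodule.Quotient.mk_eq_zero _).1 hw))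
        (by omega))
    obtain ⟨ψ, hψ⟩ := h1
    refine ⟨ψ ∘ₗ (F (r + j - 1)).mkQ, ?_, ?_⟩ <;> rw [Submodule.mem_dualAnnihilator] <;> intro w hw
    · rw [LinearMap.comp_apply, Submodule.mkQ_apply,
        (Submodule.Quotient.mk_eq_zero _).2 (h.cast hw (by omega)), map_zero]
    · rw [LinearMap.sub_apply, dual_pow, sub_eq_zero]
      exact (LinearMap.congr_fun hψ ⟨w, h.cast hw (by omega)⟩).symm

theorem lef_smul (h : Lef e r F) {c : k} (hc : c ≠ 0) : Lef (c • e) r F := by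
  refine ⟨h.mono, h.bot, h.top, fun a v hv => Submodule.smul_mem _ _ (h.up a v hv),
    fun j v hv he => h.inj j v hv ?_, fun j v hv => ?_⟩
  · rwa [smul_pow, LinearMap.smul_apply, Submodule.smul_mem_iff _ (pow_ne_zero j hc)] at he
  · obtain ⟨w, hw, h1⟩ := h.surj j v hv
    refine ⟨(c ^ j)⁻¹ • w, Submodule.smul_mem _ _ hw, ?_⟩
    rwa [smul_pow, LinearMap.smul_apply, map_smul, smul_smul, mul_inv_cancel₀ (pow_ne_zero j hc),
      one_smul]

theorem lef_zero [Subsingleton V] (e : Module.End k V) (r : ℤ) (F : ℤ → Submodule k V) :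
    Lef e r F :=
  have h : ∀ a (v : V), v ∈ F a := fun _ v => Subsingleton.elim 0 v ▸ zero_mem _
  ⟨fun _ _ _ _ _ => h _ _, ⟨0, eq_bot_iff.2 fun _ _ => Subsingleton.elim _ _⟩,
    fun _ => ⟨0, h _ _⟩, fun _ _ _ => h _ _, fun _ _ _ _ => h _ _, fun _ _ _ => ⟨0, h _ _, h _ _⟩⟩

/-- Curious hard Lefschetz for the weight filtration `W`, centred at the weight `2 r`. -/
structure CHL (e : Module.End k V) (r : ℤ) (W : ℤ → Submodule k V) : Prop where
  lef : Lef e r fun a => W (2 * a)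
  ev : ∀ a, W (2 * a + 1) = W (2 * a)

theorem CHL.zero [Subsingleton V] (e : Module.End k V) (r : ℤ) (F : ℤ → Submodule k V) :
    CHL e r F := ⟨lef_zero _ _ _, fun _ => Subsingleton.elim _ _⟩

theorem CHL.half (h : CHL e r F) (m : ℤ) : F m = F (2 * (m / 2)) := by
  rcases Int.emod_two_eq_zero_or_one m with h1 | h1
  · rw [show 2 * (m / 2) = m by omega]
  · rw [← h.ev, show 2 * (m / 2) + 1 = m by omega]

theorem CHL.mono (h : CHL e r F) : Monotone F := fun a b hab => by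
  rw [h.half a, h.half b]
  exact h.lef.mono (show a / 2 ≤ b / 2 by omega)

theorem CHL.tri (t : Tr f g δ F F' F'') (cf : ∀ x, f (e x) = e' (f x))
    (cg : ∀ x, g (e' x) = e'' (g x)) (cδ : ∀ x, δ (e'' x) = e (δ x)) (mono : Monotone F')
    (up : ∀ a, ∀ v ∈ F' a, e' v ∈ F' (a + 4)) (h : CHL e r F) (h'' : CHL e'' r F'') :
    CHL e' r F' where
  lef := lef_tri (t.re fun a => 2 * a) cf cg cδ (fun a b hab => mono (by omega))
    (fun a v hv => mono (by omega) (up _ v hv)) h.lef h''.lef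
  ev a := le_antisymm (fun x hx => by
    obtain ⟨y, hy, h1⟩ := t.gr (b := 2 * a) (mono (by omega)) hx (h''.ev a ▸ t.sg.map _ _ hx)
    rw [← sub_add_cancel x (f y)]
    exact add_mem h1 (t.sf.map _ _ (h.ev a ▸ hy))) (mono (by omega))

theorem CHL.retract {G : V →ₗ[k] V'} {G' : V' →ₗ[k] V}
    (hG : ∀ a, ∀ x ∈ F a, G x ∈ F' (a + 2 * s)) (hG' : ∀ a, ∀ x ∈ F' (a + 2 * s), G' x ∈ F a)
    (h1 : ∀ x, G' (G x) = x) (c : ∀ x, G (e x) = e' (G x)) (c' : ∀ x, G' (e' x) = e (G' x))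
    (h : CHL e' (r + s) F') : CHL e r F where
  lef := lef_retract (s := s) (fun a x hx => by rw [mul_add]; exact hG _ x hx)
    (fun a x hx => hG' _ x (by rwa [mul_add] at hx)) h1 c c' h.lef
  ev a := by
    have key : ∀ a x, x ∈ F a ↔ G x ∈ F' (a + 2 * s) := fun a x =>
      ⟨hG a x, fun hx => h1 x ▸ hG' a _ hx⟩
    ext x
    rw [key, key, show 2 * a + 1 + 2 * s = 2 * (a + s) + 1 by ring, h.ev, mul_add]

theorem CHL.of_surj {Φ : V →ₗ[k] V'} (hs : Function.Surjective Φ)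
    (hF : ∀ a x, Φ x ∈ F' (a + 2 * s) ↔ x ∈ F a) (c : ∀ x, Φ (e x) = e' (Φ x)) (h : CHL e r F) :
    CHL e' (r + s) F' where
  lef := lef_of_surj hs (fun a x => by rw [mul_add]; exact hF _ x) c h.lef
  ev a := by
    ext x
    obtain ⟨x, rfl⟩ := hs x
    rw [show 2 * a + 1 = 2 * (a - s) + 1 + 2 * s by ring, hF, h.ev, ← hF,
      show 2 * (a - s) + 2 * s = 2 * a by ring]

theorem CHL.dual (h : CHL e r F) (s : ℤ) :
    CHL e.dualMap (s - r) fun a => (F (2 * s - a - 1)).dualAnnihilator where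
  lef := by
    convert lef_dual h.lef s using 3 with a
    rw [← h.ev]
    congr 1
    ring
  ev a := by
    rw [show 2 * s - 2 * a - 1 = 2 * (s - a - 1) + 1 by ring, h.ev]
    congr 2
    ring

theorem CHL.smul (h : CHL e r F) {c : k} (hc : c ≠ 0) : CHL (c • e) r F :=
  ⟨lef_smul h.lef hc, h.ev⟩

end P275LF
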