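import Vale.Agent.P275LF.Alg

/-! P275: hard Lefschetz for a nondegenerate constant 2-form on an exterior algebra. -/

namespace P275LF

open P275JM Finset

variable {k V : Type*} [Field k] [CharZero k] [AddCommGroup V] [Module k V]

/-- The weight filtration of `H`. -/
def wf (k : Type*) {V : Type*} [Field k] [AddCommGroup V] [Module k V] (H : Module.End k V)
    (N : ℕ) (l : ℤ) : Submodule k V where
  carrier := {v | ∀ i, l < i → pr k H N i v = 0}
  add_mem' ha hb i hi := by rw [map_add, ha i hi, hb i hi, add_zero]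
  zero_mem' _ _ := map_zero _
  smul_mem' c _ ha i hi := by rw [map_smul, ha i hi, smul_zero]

theorem lef_mor {e D H : Module.End k V} {N : ℕ} (h : Mor e D H N) : Lef e 0 (wf k H N) := by
  have hs := h.spec (k := k)
  have hp : ∀ (j : ℕ) (i : ℤ) v, pr k H N (i + 2 * j) ((e ^ j) v) = (e ^ j) (pr k H N i v) :=
    fun j i v => LinearMap.congr_fun (h.pr_mul_pow (k := k) j i) v
  refine ⟨fun a b hab v hv i hi => hv i (by omega), ⟨-N, eq_bot_iff.2 fun v hv => ?_⟩,
    fun v => ⟨N, fun i hi => ?_⟩, fun a v hv i hi => ?_, fun j v hv he i hi => ?_,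
    fun j v hv => ?_⟩
  · rw [Submodule.mem_bot, ← hs.sum_pr_smul v]
    exact sum_eq_zero fun i hi => hv i (mem_Ioo.1 hi).1
  · rw [pr_of_not_mem H (hi.le.trans (le_abs_self i)), LinearMap.zero_apply]
  · have := hp 1 (i - 2) v
    rw [hv (i - 2) (by omega), map_zero, pow_one] at this
    simpa using this
  · by_cases e1 : i = -j
    · subst e1
      refine h.inj (j := j) (a := j) le_rfl (by simpa using hs.H_smul_pr (-(j : ℤ)) v) ?_
      rw [← hp]
      exact he _ (by omega)
    · exact hv i (by omega)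
  · obtain ⟨w, hw, h1⟩ := h.surj j (v := pr k H N j v) (by simpa using hs.H_smul_pr (j : ℤ) v)
    have hw' : H • w = ((-(j : ℤ) : ℤ) : k) • w := by simpa using hw
    refine ⟨w, fun i hi => hs.pr_smul_of_ne (by omega) hw', fun i hi => ?_⟩
    rw [h1, map_sub]
    by_cases e1 : i = j
    · rw [e1, ← Module.End.mul_apply, hs.pr_mul_pr, sub_self]
    · rw [hv i (by omega), ← Module.End.mul_apply, hs.pr_mul_pr_of_ne e1]
      simp

section Car

variable {R ι : Type*} [Ring R] [Algebra k R] [Fintype ι] [DecidableEq ι]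

/-- The operator of the 2-form. -/
def two (Ω : Matrix ι ι k) (l : ι → R) : R := ∑ i, ∑ j, Ω i j • (l i * l j)

/-- The number operator. -/
def num (l c : ι → R) : R := ∑ i, l i * c i

variable {l c : ι → R} (ll : ∀ i j, l i * l j = -(l j * l i))
  (cl : ∀ i j, c i * l j = (if i = j then 1 else 0) - l j * c i) {Ω : Matrix ι ι k}
include ll cl

omit [CharZero k] in
theorem num_l (j : ι) : num l c * l j - l j * num l c = l j := by
  rw [num, sum_mul, mul_sum, ← sum_sub_distrib]
  have : ∀ i, l i * c i * l j - l j * (l i * c i) = if i = j then l i else 0 := fun i => by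
    rw [mul_assoc, cl, mul_sub, ← mul_assoc, ← mul_assoc, ll j i]
    split_ifs <;> simp
  simp [this]

omit [CharZero k] in
theorem num_two : num l c * two Ω l - two Ω l * num l c = 2 * two Ω l := by
  simp only [two, mul_sum, sum_mul, ← sum_sub_distrib, mul_smul_comm, smul_mul_assoc, ← smul_sub]
  refine sum_congr rfl fun i _ => sum_congr rfl fun j _ => congrArg _ ?_
  have h1 := num_l ll cl i
  have h2 := num_l ll cl j
  calc _ = (num l c * l i - l i * num l c) * l j + l i * (num l c * l j - l j * num l c) := by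
        noncomm_ring
    _ = _ := by rw [h1, h2, two_mul]

omit [CharZero k] ll in
theorem c_two (hs : Ω.transpose = -Ω) (q : ι) :
    c q * two Ω l - two Ω l * c q = (2 : k) • ∑ j, Ω q j • l j := by
  have h1 : ∀ i j, c q * (l i * l j) - l i * l j * c q =
      (if q = i then l j else 0) - if q = j then l i else 0 := fun i j => by
    rw [← mul_assoc, cl, sub_mul, mul_assoc (l i), cl, mul_sub, ← mul_assoc]
    split_ifs <;> noncomm_ring
  have h2 : ∀ i j, Ω j i = -Ω i j := fun i j => congrFun (congrFun hs i) j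
  simp only [two, mul_sum, sum_mul, ← sum_sub_distrib, mul_smul_comm, smul_mul_assoc, ← smul_sub,
    h1]
  simp only [smul_sub, sum_sub_distrib, smul_ite, smul_zero, sum_ite_eq, mem_univ, if_true]
  rw [sum_comm]
  simp only [sum_ite_eq, mem_univ, if_true, h2 q, neg_smul, sum_neg_distrib, two_smul,
    sub_neg_eq_add]

omit ll in
theorem two_D (hs : Ω.transpose = -Ω) (hd : Ω.det ≠ 0) : ∃ D : R,
    two Ω l * D - D * two Ω l = num l c - algebraMap k R ((Fintype.card ι : k) / 2) := by
  have hu : IsUnit Ω.det := hd.isUnit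
  set b : ι → R := fun p => ∑ q, Ω⁻¹ p q • c q with hb
  have h1 : ∀ p, b p * two Ω l - two Ω l * b p = (2 : k) • l p := fun p => by
    simp only [hb, mul_sum, sum_mul, ← sum_sub_distrib, mul_smul_comm, smul_mul_assoc, ← smul_sub,
      c_two cl hs]
    simp only [smul_comm _ (2 : k), ← smul_sum]
    congr 1
    simp only [smul_sum, smul_smul]
    rw [sum_comm]
    simp only [← sum_smul, ← Matrix.mul_apply, Matrix.nonsing_inv_mul _ hu, Matrix.one_apply,
      ite_smul, one_smul, zero_smul, sum_ite_eq, mem_univ, if_true]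
  have h2 : ∑ p, (∑ j, Ω p j • l j) * b p = -num l c := by
    simp only [hb, mul_sum, sum_mul, mul_smul_comm, smul_mul_assoc]
    rw [sum_comm, num, ← sum_neg_distrib]
    refine sum_congr rfl fun q _ => ?_
    simp only [smul_sum, smul_smul]
    rw [sum_comm]
    have : ∀ j, ∑ p, Ω⁻¹ p q * Ω p j = -if j = q then 1 else 0 := fun j => by
      have := congrFun (congrFun (Matrix.mul_nonsing_inv _ hu) j) q
      rw [Matrix.mul_apply, Matrix.one_apply] at this
      rw [← this, ← sum_neg_distrib]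
      refine sum_congr rfl fun p _ => ?_
      rw [show Ω p j = -Ω j p from congrFun (congrFun hs j) p]
      ring
    simp [← sum_smul, this]
  have h3 : ∑ p, c p * l p = (Fintype.card ι : R) - num l c := by
    simp [cl, num]
  have h4 : (∑ p, c p * b p) * two Ω l - two Ω l * ∑ p, c p * b p =
      (2 : k) • ((Fintype.card ι : R) - num l c) + (2 : k) • -num l c := by
    rw [← h2, ← h3, sum_mul, mul_sum, ← sum_sub_distrib, smul_sum, smul_sum, ← sum_add_distrib]
    refine sum_congr rfl fun p _ => ?_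
    rw [← mul_smul_comm, ← smul_mul_assoc, ← h1, ← c_two cl hs]
    noncomm_ring
  refine ⟨(4 : k)⁻¹ • ∑ p, c p * b p, ?_⟩
  rw [mul_smul_comm, smul_mul_assoc, ← smul_sub, ← neg_sub, h4, Algebra.algebraMap_eq_smul_one,
    ← nsmul_one (Fintype.card ι), ← Nat.cast_smul_eq_nsmul k]
  module

omit cl [DecidableEq ι] in
theorem two_nil : IsNilpotent (two Ω l) := by
  have h0 : ∀ i, l i * l i = 0 := fun i => by
    have h1 : (2 : k) • (l i * l i) = 0 := by rw [two_smul, ← eq_neg_iff_add_eq_zero, ← ll]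
    rw [← one_smul k (l i * l i), ← inv_mul_cancel₀ (two_ne_zero (α := k)), mul_smul, h1, smul_zero]
  have h1 : ∀ i j p, l i * l j * l p = l p * (l i * l j) := fun i j p => by
    rw [mul_assoc, ll j p, mul_neg, ← mul_assoc, ll i p, neg_mul, neg_neg, mul_assoc]
  rw [two, ← Fintype.sum_prod_type']
  refine Commute.isNilpotent_sum (fun p _ => ⟨2, ?_⟩) fun p q _ _ =>
    (Commute.smul_left ?_ _).smul_right _
  · rw [smul_pow, pow_two (l p.1 * l p.2), ← mul_assoc, h1, ← mul_assoc, h0, zero_mul, zero_mul,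
      smul_zero]
  · rw [Commute, SemiconjBy, ← mul_assoc, h1, mul_assoc, h1, mul_assoc]

end Car

variable {ι A : Type*} [Fintype ι] [DecidableEq ι] [AddCommGroup A] [Module k A]

/-- `v` generates the space under the operators `L`. -/
def Gen (L : ι → Module.End k V) (v : V) : Prop :=
  ∀ P : Submodule k V, v ∈ P → (∀ i, ∀ x ∈ P, L i x ∈ P) → ∀ x, x ∈ P

theorem cell_aux {l c : ι → Module.End k A} (ll : ∀ i j, l i * l j = -(l j * l i))
    (cl : ∀ i j, c i * l j = (if i = j then 1 else 0) - l j * c i) {u : A} (hu : ∀ i, c i u = 0)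
    (gu : Gen l u) {L : ι → Module.End k V} {Φ : A →ₗ[k] V} (hΦ : ∀ i y, Φ (l i y) = L i (Φ y))
    {W : ℤ → Submodule k V} (mono : Monotone W) (hL : ∀ i m, ∀ x ∈ W m, L i x ∈ W (m + 2))
    {b r : ℤ} (hv : Φ u ∈ W (2 * b)) (gen : Gen L (Φ u))
    (top : W (2 * Fintype.card ι + 2 * b - 1) ≠ ⊤) {Ω : Matrix ι ι k} (hs : Ω.transpose = -Ω)
    (hd : Ω.det ≠ 0) (hr : 2 * r = Fintype.card ι + 2 * b) : CHL (two Ω L) r W := by
  obtain ⟨D, hD⟩ := two_D cl hs hd
  obtain ⟨N, hN⟩ := two_nil (Ω := Ω) ll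
  obtain ⟨r0, rfl⟩ : ∃ r0 : ℕ, r = r0 + b := ⟨(r - b).toNat, by omega⟩
  have hc : Fintype.card ι = 2 * r0 := by omega
  rw [hc, Nat.cast_mul, Nat.cast_ofNat, mul_div_cancel_left₀ _ (two_ne_zero (α := k))] at hD
  set H := num l c - algebraMap k (Module.End k A) (r0 : k) with hH
  have m : Mor (two Ω l) D H N := ⟨hD, by
    rw [hH, sub_mul, mul_sub, Algebra.commutes, sub_sub_sub_cancel_right, num_two ll cl], hN⟩
  have sp := m.spec (k := k)
  have sh : ∀ j i y, pr k H N (i + 1) (l j y) = l j (pr k H N i y) := fun j i y =>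
    LinearMap.congr_fun (sp.pr_shift (x := l j) (s := 1) (by
      rw [hH, sub_mul, mul_sub, Algebra.commutes, sub_sub_sub_cancel_right, num_l ll cl,
        Int.cast_one, one_smul]) i) y
  have h1 : H • u = ((-(r0 : ℤ) : ℤ) : k) • u := by
    rw [Module.End.smul_def, hH, LinearMap.sub_apply, Module.algebraMap_end_apply]
    simp [num, hu]
  have hs' : Function.Surjective Φ := fun x => gen (LinearMap.range Φ) ⟨u, rfl⟩
    (by rintro i _ ⟨y, rfl⟩; exact ⟨_, hΦ i y⟩) x
  have ce : ∀ y, Φ (two Ω l y) = two Ω L (Φ y) := fun y => by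
    simp [two, LinearMap.sum_apply, hΦ]
  have ind : ∀ Q : ℤ → Submodule k A, u ∈ Q (-r0) → (∀ j i, ∀ x ∈ Q i, l j x ∈ Q (i + 1)) →
      ∀ y i, pr k H N i y ∈ Q i := fun Q q1 q2 y =>
    (Submodule.mem_iInf _).1 (gu (⨅ i, (Q i).comap (pr k H N i)) ((Submodule.mem_iInf _).2 fun i => by
      change pr k H N i • u ∈ Q i
      by_cases e1 : i = -r0
      · rwa [e1, sp.pr_smul_self h1]
      · rw [sp.pr_smul_of_ne e1 h1]
        exact zero_mem _)
      (fun j x hx => (Submodule.mem_iInf _).2 fun i => by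
        have := q2 j _ _ ((Submodule.mem_iInf _).1 hx (i - 1))
        rwa [← sh, sub_add_cancel] at this) y)
  have a1 : ∀ y i, Φ (pr k H N i y) ∈ W (2 * (r0 + b + i)) :=
    ind (fun i => (W (2 * (r0 + b + i))).comap Φ) (mono (by omega) hv) fun j i x hx => by
      rw [Submodule.mem_comap, hΦ]
      exact mono (by omega) (hL j _ _ hx)
  have a2 : ∀ y (i : ℤ), pr k H N i y ∈
      (if i < -r0 then ⊥ else if i = -r0 then k ∙ u else ⊤ : Submodule k A) :=
    ind (fun i => if i < -r0 then ⊥ else if i = -r0 then k ∙ u else ⊤) (by simp) fun j i x hx => by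
      by_cases e1 : i < -r0
      · rw [if_pos e1, Submodule.mem_bot] at hx
        rw [hx, map_zero]
        exact zero_mem _
      · rw [if_neg (by omega), if_neg (by omega)]
        trivial
  have a3 : ∀ (j : ℕ) y, ∃ w, pr k H N j y = (two Ω l ^ j) (pr k H N (-j) w) := fun j y => by
    obtain ⟨w, hw, h2⟩ := m.surj j (v := pr k H N j y) (by simpa using sp.H_smul_pr (j : ℤ) y)
    exact ⟨w, by rw [← h2]; exact congrArg _ (sp.pr_smul_self (by simpa using hw)).symm⟩
  have a4 : ∀ y (i : ℤ), r0 < i → pr k H N i y = 0 := fun y i hi => by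
    obtain ⟨j, rfl⟩ := Int.eq_ofNat_of_zero_le (show 0 ≤ i by omega)
    obtain ⟨w, hw⟩ := a3 j y
    have := a2 w (-j)
    rw [if_pos (by omega), Submodule.mem_bot] at this
    rw [hw, this, map_zero]
  have a5 : ∀ y, ∃ t : k, pr k H N r0 y = t • (two Ω l ^ r0) u := fun y => by
    obtain ⟨w, hw⟩ := a3 r0 y
    have := a2 w (-r0)
    rw [if_neg (by omega), if_pos rfl, Submodule.mem_span_singleton] at this
    obtain ⟨t, ht⟩ := this
    exact ⟨t, by rw [hw, ← ht, map_smul]⟩
  have a6 : ∀ (y : A) (n : ℤ), (∀ i, Φ (pr k H N i y) ∈ W n) → Φ y ∈ W n := fun y n h => by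
    rw [← sp.sum_pr_smul y, map_sum]
    exact sum_mem fun i _ => h i
  have a7 : ∀ y, Φ y ∈ W (2 * (2 * r0 + b) - 1) → pr k H N r0 y = 0 := fun y hy => by
    have lo : ∀ z (i : ℤ), i ≠ r0 → Φ (pr k H N i z) ∈ W (2 * (2 * r0 + b) - 1) := fun z i hi => by
      by_cases e1 : r0 < i
      · rw [a4 z i e1, map_zero]
        exact zero_mem _
      · exact mono (by omega) (a1 z i)
    obtain ⟨t, ht⟩ := a5 y
    by_contra h0
    have h2 : t ≠ 0 := fun e1 => h0 (by rw [ht, e1, zero_smul])
    have h3 : Φ (pr k H N r0 y) ∈ W (2 * (2 * r0 + b) - 1) := by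
      have := sub_mem hy (a6 (y - pr k H N r0 y) _ fun i => by
        by_cases e1 : i = r0
        · rw [e1, map_sub, ← Module.End.mul_apply, sp.pr_mul_pr, sub_self, map_zero]
          exact zero_mem _
        · exact lo _ i e1)
      rwa [map_sub, sub_sub_cancel] at this
    rw [ht, map_smul, Submodule.smul_mem_iff _ h2] at h3
    refine top (eq_top_iff.2 fun x _ => ?_)
    obtain ⟨z, rfl⟩ := hs' x
    refine mono (by omega) (a6 z (2 * (2 * r0 + b) - 1) fun i => ?_)
    by_cases e1 : i = r0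
    · obtain ⟨t', ht'⟩ := a5 z
      rw [e1, ht', map_smul]
      exact Submodule.smul_mem _ _ h3
    · exact lo z i e1
  have a8 : ∀ (n : ℕ) y, Φ y ∈ W (2 * (r0 + b + (r0 - n)) + 1) → y ∈ wf k H N (r0 - n) := by
    intro n
    induction n with
    | zero => exact fun y _ i hi => a4 y i (by simpa using hi)
    | succ n ih =>
      intro y hy i hi
      by_cases e1 : i = r0
      · exact e1 ▸ a7 y (mono (by push_cast; omega) hy)
      have h2 : ∀ j, l j (pr k H N i y) = 0 := fun j => by
        rw [← sh]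
        exact ih _ ((hΦ j y).symm ▸ mono (by push_cast; omega) (hL j _ _ hy)) _
          (by push_cast at hi; omega)
      have h3 : ∀ j, l j (c j (pr k H N i y)) = pr k H N i y := fun j => by
        have := LinearMap.congr_fun (cl j j) (pr k H N i y)
        rw [if_pos rfl, Module.End.mul_apply, h2, map_zero, LinearMap.sub_apply, eq_comm,
          sub_eq_zero] at this
        exact this.symm
      have h4 : H (pr k H N i y) = (i : k) • pr k H N i y := sp.H_smul_pr i y
      generalize pr k H N i y = z at h3 h4 ⊢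
      simp only [hH, num, LinearMap.sub_apply, LinearMap.sum_apply, Module.End.mul_apply, h3,
        sum_const, card_univ, hc, Module.algebraMap_end_apply] at h4
      have h5 : ((r0 - i : ℤ) : k) • z = 0 := by
        rw [Int.cast_sub, sub_smul, ← h4, ← Nat.cast_smul_eq_nsmul k]
        push_cast
        module
      exact (smul_eq_zero.1 h5).resolve_left (Int.cast_ne_zero.2 (by omega))
  have a9 : ∀ i y, y ∈ wf k H N i → Φ y ∈ W (2 * (i + (r0 + b))) := fun i y hy => a6 y _ fun j => by
    by_cases e1 : i < j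
    · rw [hy j e1, map_zero]
      exact zero_mem _
    · exact mono (by omega) (a1 y j)
  have a10 : ∀ i y, Φ y ∈ W (2 * (i + (r0 + b)) + 1) → y ∈ wf k H N i := fun i y hy j hj => by
    by_cases e1 : r0 < j
    · exact a4 y j e1
    · exact a8 (r0 - i).toNat y (mono (by omega) hy) j (by omega)
  refine ⟨?_, fun a => le_antisymm (fun x hx => ?_) (mono (by omega))⟩
  · have := lef_of_surj (F' := fun a => W (2 * a)) (s := r0 + b) hs'
      (fun a x => ⟨fun hx => a10 a x (mono (by omega) hx), a9 a x⟩) ce (lef_mor m)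
    rwa [zero_add] at this
  · obtain ⟨y, rfl⟩ := hs' x
    exact mono (by omega) (a9 _ y (a10 (a - (r0 + b)) y (mono (by omega) hx)))

/-- **Curious hard Lefschetz for a cell.** -/
theorem cell {L : ι → Module.End k V} (LL : ∀ i j, L i * L j = -(L j * L i))
    {W : ℤ → Submodule k V} (mono : Monotone W) (hL : ∀ i m, ∀ x ∈ W m, L i x ∈ W (m + 2))
    {b r : ℤ} {v : V} (hv : v ∈ W (2 * b)) (gen : Gen L v)
    (top : W (2 * Fintype.card ι + 2 * b - 1) ≠ ⊤) {Ω : Matrix ι ι k} (hs : Ω.transpose = -Ω)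
    (hd : Ω.det ≠ 0) (hr : 2 * r = Fintype.card ι + 2 * b) : CHL (two Ω L) r W := by
  let φ : (ι → k) →ₗ[k] Module.End k V := ∑ i, (LinearMap.proj i).smulRight (L i)
  have hφ : ∀ x, φ x = ∑ i, x i • L i := fun x => by simp [φ, LinearMap.sum_apply]
  have h0 : ∀ x, φ x * φ x = 0 := fun x => by
    have h1 : φ x * φ x = -(φ x * φ x) := by
      rw [hφ, sum_mul_sum, sum_comm, ← sum_neg_distrib]
      nth_rewrite 1 [sum_comm]
      refine sum_congr rfl fun i _ => ?_
      rw [← sum_neg_distrib]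
      refine sum_congr rfl fun j _ => ?_
      rw [smul_mul_smul_comm, smul_mul_smul_comm, LL, mul_comm, smul_neg]
    have h2 : (2 : k) • (φ x * φ x) = 0 := by rw [two_smul, ← eq_neg_iff_add_eq_zero, ← h1]
    exact (smul_eq_zero.1 h2).resolve_left two_ne_zero
  let ρ := ExteriorAlgebra.lift k ⟨φ, h0⟩
  let Φ : ExteriorAlgebra k (ι → k) →ₗ[k] V := LinearMap.applyₗ v ∘ₗ ρ.toLinearMap
  have hΦ : ∀ y, Φ y = ρ y v := fun _ => rfl
  have h1 : Φ 1 = v := by rw [hΦ, map_one]; rfl
  refine cell_aux (A := ExteriorAlgebra k (ι → k)) (Φ := Φ) (u := 1)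
    (l := fun i => LinearMap.mulLeft k (ExteriorAlgebra.ι k (Pi.single i 1)))
    (c := fun i => CliffordAlgebra.contractLeft (LinearMap.proj i)) (fun i j => ?_) (fun i j => ?_)
    (fun i => CliffordAlgebra.contractLeft_one _ _) (fun P p1 p2 y => ?_) (fun i y => ?_) mono hL
    (h1 ▸ hv) (h1 ▸ gen) top hs hd hr
  · refine LinearMap.ext fun y => ?_
    simp only [Module.End.mul_apply, LinearMap.mulLeft_apply, LinearMap.neg_apply, ← mul_assoc]
    rw [← neg_mul, eq_neg_of_add_eq_zero_left (ExteriorAlgebra.ι_add_mul_swap _ _)]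
  · refine LinearMap.ext fun y => ?_
    have := CliffordAlgebra.contractLeft_ι_mul (Q := 0) (d := LinearMap.proj i)
      (Pi.single j (1 : k) : ι → k) y
    refine this.trans ?_
    by_cases e1 : i = j <;> simp [e1, ExteriorAlgebra.ι]
  · induction y using CliffordAlgebra.left_induction with
    | algebraMap t =>
      rw [Algebra.algebraMap_eq_smul_one]
      exact P.smul_mem t p1
    | add x y hx hy => exact add_mem hx hy
    | ι_mul x m hx =>
      rw [pi_eq_sum_univ' m, map_sum, sum_mul]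
      exact sum_mem fun i _ => by
        rw [map_smul, smul_mul_assoc]
        exact P.smul_mem _ (p2 i x hx)
  · rw [hΦ, hΦ, LinearMap.mulLeft_apply, map_mul, ExteriorAlgebra.lift_ι_apply, hφ]
    simp [Pi.single_apply]

end P275LF
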