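import Vale.Agent.P275LF.Tri
import Vale.Agent.P275QV.Cel
import Vale.Agent.P275LE.Col
import Vale.Agent.P275BC.Main

/-! P275: curious hard Lefschetz for the parabolic character variety. -/

open scoped Manifold ContDiff Topology
open Filter Set Function
open Vale.Agent Vale.Agent.P272.K Vale.Agent.P281Z.Hg Vale.Agent.P275MC Vale.Agent.P275FM
  Vale.Agent.P275AR Vale.Agent.P275KU Vale.Agent.P275OM
open Vale.Agent.P275RG (Cp)
open P275BC (Cell Ix Rt Gnc QP Orb qm wA bcell)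
open P275QV

noncomputable section

namespace P275LF

variable {κ : Type} [Fintype κ] {d r g : ℕ} {t : Fin (r + 1) → ℂ}
  {q : κ → MvPolynomial (Ix (r + 1) g) ℂ} (V : Var d (qm q '' Rt g t)) (ht : Gnc t)
  (hq : QP (Orb (wA r g)) (Rt g t) q)

include ht hq

theorem fb_x1 : Fb t (Matrix.blockTriangularSubalgebra ℂ ℂ id)
    fun x => {y ∈ Rt g t | qm q y = V.ι x} :=
  .upper ht (fun _ _ h => h.1) fun _ y h y' h' => by
    obtain ⟨P, Q, h1, h2⟩ := hq.sec y h.1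
    obtain ⟨τ, e⟩ := h2 y h.1 h1
    obtain ⟨σ, e'⟩ := h2 y' h'.1 (by rwa [h'.2, ← h.2])
    rw [h'.2, ← h.2, e] at e'
    have e1 : y' = P275BC.actW (wA r g) (σ⁻¹ * τ) y := by
      rw [← actW_mul, e', actW_mul, inv_mul_cancel, actW_one]
    refine ⟨dT (σ⁻¹ * τ), fun a c h => Matrix.diagonal_apply_ne _ h.ne', Units.ne_zero _,
      fun k b => ?_⟩
    rw [e1, mt_act, P275BC.HG.ad, Matrix.mul_assoc, Units.inv_mul, Matrix.mul_one]

theorem sc_x1 : Sc d fun x => {y ∈ Rt g t | qm q y = V.ι x} := fun x => by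
  obtain ⟨y, h1, h2⟩ := V.mem x
  obtain ⟨s, s1, -, s3⟩ := V.sec (stb_Rt t) hq h1 (fr_con (rt_con ht h1) _) h2.symm
  exact ⟨_, (V.anV x).cmp s1, s3⟩

theorem lef_wH (hd : 2 * d + 4 * g + r * (r + 5) = 4 * g * (r + 1) ^ 2)
    (w : Zf d V.X) (hw : IsOmg (fun x => {y ∈ Rt g t | qm q y = V.ι x}) w.1) :
    CHL (wH univ w) (g * (r + 1) ^ 2 - r - g) (Wf (wt V.c)) := by
  refine chl_pav (lc_x1 hq) (x1_par ht hq hd) (bcell r g t κ q ht hq) V w (hw.deg (sc_x1 V ht hq))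
    (fun U V' v hv a x hx => ?_) fun S h => ?_
  · rcases lt_or_ge a (-1) with h | h
    · rw [(gr_wt _).flt_zero (x := x) (by rwa [← show (a + 1).toNat = 0 by omega]), map_zero]
      exact zero_mem _
    · exact flt_mono (by omega) (P275LE.s2_two V'.c v hv hx)
  · obtain ⟨a, b, c, h⟩ := chl_qcell h
    exact ⟨a, b, c, fun W i hi => h W _ ((hw.pb (fb_x1 V ht hq) (sc_x1 V ht hq)
      (Var.incl hi).1.hol).mono fun x y k => ⟨k.1, k.2.trans (hi x).symm⟩)⟩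

/-- **curious hard Lefschetz** for the quotient of `Rt` by the torus -/
theorem lef_x1 (hd : 2 * d + 4 * g + r * (r + 5) = 4 * g * (r + 1) ^ 2)
    {w : SF d V.X} (h0 : dd d V.X w = 0)
    (hw : IsOmg (fun x => {y ∈ Rt g t | qm q y = V.ι x}) w) :
    CHL (hm d univ (cl 2 ⟨w, h0⟩)) (g * (r + 1) ^ 2 - r - g)
      fun a => flt (wt V.c) (a + 1).toNat := by
  rw [hm_cl (hw.deg (sc_x1 V ht hq)) h0]
  exact lef_wH V ht hq hd ⟨w, h0⟩ hw

end P275LF
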