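import Vale.Agent.P275QV.Bd
import Vale.Agent.P275MC.Gy
import Vale.Agent.P275LF.Alg

/-! P275: curious hard Lefschetz passes from the cells of a paving to the variety. -/

open scoped Manifold ContDiff Topology
open Filter Set Function
open Vale.Agent Vale.Agent.P272.K Vale.Agent.P281Z.Hg Vale.Agent.P275MC Vale.Agent.P275FM
  Vale.Agent.P275AR Vale.Agent.P275MH Vale.Agent.P275RG
open P275BC (Cell Pav)
open P275QV

set_option linter.unusedSectionVars false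

noncomputable section

namespace P275LF

section alg

variable {V V' : Type*} [AddCommGroup V] [Module ℂ V] [AddCommGroup V'] [Module ℂ V']
  {w : ℕ → Module.End ℂ V} {w' : ℕ → Module.End ℂ V'} {φ : V →ₗ[ℂ] V'}

/-- the filtration by the weights at most `a` -/
abbrev Wf (w : ℕ → Module.End ℂ V) : ℤ → Submodule ℂ V := fun a => flt w (a + 1).toNat

theorem Wf_mono (w : ℕ → Module.End ℂ V) : Monotone (Wf w) := fun _ _ h => flt_mono (by omega)

theorem str_of (h : IsGr w) (h' : IsGr w') (g : Grd w w' 0 φ) : Str φ (Wf w) (Wf w') :=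
  ⟨fun _ _ hx => g.low.map_flt h (by omega) hx, fun _ _ hx => g.strict h h' (by omega) hx⟩

end alg

section mf

variable {m k : ℕ} {M Z V : Type} [TopologicalSpace M] [ChartedSpace (Cm m) M] [T2Space M]
  [IsManifold 𝓘(ℂ, Cm m) ω M] [TopologicalSpace Z] [ChartedSpace (Cm k) Z] [T2Space Z]
  [IsManifold 𝓘(ℂ, Cm k) ω Z] [TopologicalSpace V] [ChartedSpace (Cm m) V] [T2Space V]
  [IsManifold 𝓘(ℂ, Cm m) ω V] {cM : Cp m M} {cZ : Cp k Z} {cV : Cp m V} {i : Z → M} {j : V → M}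

/-- the pull back of a closed form -/
abbrev pz {i : Z → M} (hi : Smo k m i) (w : Zf m M) : Zf k Z := ⟨pb hi w.1, pb_Zf hi w⟩

theorem hc_sub [IsEmpty M] : Subsingleton (Hc m (univ : Set M)) := ⟨fun x y => by
  obtain ⟨a, ha, h, rfl⟩ := hc_ind x
  obtain ⟨b, hb, h', rfl⟩ := hc_ind y
  exact hc_congr (G2H.ext' fun _ x => isEmptyElim x) _ _⟩

variable (hi : Smo k m i) (he : Topology.IsClosedEmbedding i) (oj : OE m j)
  (rg : range j = (range i)ᶜ) (w : Zf m M)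

theorem exV_wH (x : Hc m (univ : Set V)) :
    exV oj (wH univ (pz oj.smo w) x) = wH univ w (exV oj x) := by
  obtain ⟨z, hz, rfl⟩ := Coh.ind x
  exact Coh.mk_congr (Subtype.ext (oj.ext_wd z.2 _)) _

theorem rsZ_wH (x : Hc m (univ : Set M)) :
    rsZ hi he (wH univ w x) = wH univ (pz hi w) (rsZ hi he x) := by
  obtain ⟨z, hz, rfl⟩ := Coh.ind x
  exact Coh.mk_congr (Subtype.ext (pb_wd hi _ _)) _

theorem bdV_wH (hw : pr m M w.1 = w.1) (x : Hc k (univ : Set Z)) :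
    bdV hi he oj rg (wH univ (pz hi w) x) = wH univ (pz oj.smo w) (bdV hi he oj rg x) := by
  obtain ⟨z, h1, u, h2, y, h3, h4, h5, rfl, h6⟩ := bdV_bd hi he oj rg x
  have e : pb hi (wd w.1 z) = wd (pb hi w.1) u.1 := by rw [pb_wd, h4]
  have k1 : dd k Z (wd (pb hi w.1) u.1) = 0 :=
    congrArg Subtype.val ((ch_wd univ (pz hi w)).cyc u h2)
  have k2 : dd m V (wd (pb oj.smo w.1) y.1) = 0 :=
    congrArg Subtype.val ((ch_wd univ (pz oj.smo w)).cyc y h3)
  rw [h6]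
  refine (congrArg _ (hc_congr e.symm (wd_Ac _ u.2) k1)).trans (bdV_spec hi he oj rg (wd_Ac _ h1)
    (wd_Ac _ y.2) (h3 := k2) ?_)
  rw [oj.ext_wd y.2, ← h5]
  exact (act_wd w.2 hw).comm z h1

/-- the triangle step -/
theorem chl_tri {r : ℤ} (hw : pr m M w.1 = w.1) (g1 : Grd (wt cV) (wt cM) 0 (exV oj))
    (g2 : Grd (wt cM) (wt cZ) 0 (rsZ hi he)) (g3 : Grd (wt cZ) (wt cV) 0 (bdV hi he oj rg))
    (up : ∀ a, ∀ x ∈ Wf (wt cM) a, wH univ w x ∈ Wf (wt cM) (a + 4))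
    (hV : CHL (wH univ (pz oj.smo w)) r (Wf (wt cV))) (hZ : CHL (wH univ (pz hi w)) r (Wf (wt cZ))) :
    CHL (wH univ w) r (Wf (wt cM)) :=
  .tri ⟨str_of (gr_wt _) (gr_wt _) g1, str_of (gr_wt _) (gr_wt _) g2, str_of (gr_wt _) (gr_wt _) g3,
    ex_M hi he oj rg, ex_Z hi he oj rg, ex_V hi he oj rg⟩ (exV_wH oj w) (rsZ_wH hi he w)
    (bdV_wH hi he oj rg w hw) (Wf_mono _) up hV hZ

end mf

variable {κ : Type} [Fintype κ] {d : ℕ} {Y : Set (κ → ℂ)}

/-- **induction along a paving** -/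
theorem chl_pav {c : Set (κ → ℂ) → Prop} (hY : LC Y) (hs : ∀ y ∈ Y, Par d Y y) (h : Pav c Y)
    (V : Var d Y) (w : Zf d V.X) (hw : w.1 ∈ Dg d V.X 2) {r : ℤ}
    (up : ∀ (U : Set (κ → ℂ)) (V' : Var d U) (v : Zf d V'.X), v.1 ∈ Dg d V'.X 2 →
      ∀ a, ∀ x ∈ Wf (wt V'.c) a, wH univ v x ∈ Wf (wt V'.c) (a + 4))
    (cell : ∀ S, c S → ∃ (a b : ℕ) (_ : Cell S (Fin a) (Fin b)), ∀ (W : Var (a + b) S)
      (i : W.X → V.X) (hi : ∀ x, V.ι (i x) = W.ι x),
        CHL (wH univ (pz (Var.smo hi) w)) r (Wf (wt W.c))) : CHL (wH univ w) r (Wf (wt V.c)) := by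
  have key := pav_var hY hs h (fun _ V' => ∀ (f : V'.X → V.X) (hf : ∀ x, V.ι (f x) = V'.ι x),
    CHL (wH univ (pz (Var.smo hf) w)) r (Wf (wt V'.c))) (fun V' f hf => ?_)
    (fun U S V0 V' h1 h2 h3 h4 h5 h6 f hf => ?_) V (fun x => x) fun _ => rfl
  · rwa [show pz _ w = w from Subtype.ext (pb_id _)] at key
  · have : IsEmpty V'.X := ⟨fun x => V'.mem x⟩
    have := hc_sub (m := d) (M := V'.X)
    exact .zero _ _ _
  · obtain ⟨a, b, s, hc⟩ := cell S h1
    obtain ⟨W⟩ := cell_var h2 s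
    obtain ⟨i, hi⟩ := W.exists_map V' (F := id) subset_union_right
    obtain ⟨j, hj⟩ := V0.exists_map V' (F := id) subset_union_left
    simp only [id] at hi hj
    have he : Topology.IsClosedEmbedding i :=
      ⟨(Var.incl hi).2.2, (Var.incl hi).2.1.rng ▸ h4.closed⟩
    have rg : range j = (range i)ᶜ := by rw [(Var.incl hi).2.1.rng, (Var.incl hj).2.1.rng, h5]
    have hd := pb_Dg (Var.smo hf) hw
    refine chl_tri (Var.smo hi) he (Var.oe hj) rg _ (P275KU.pr_even hd even_two) (Var.grd_exV hj)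
      (grd_rsZ _ he (Var.incl hi).1) (Var.grd_bd s hi hj he rg) (up _ _ _ hd) ?_ ?_
    · have := h6 (fun x => f (j x)) fun x => (hf _).trans (hj x)
      rwa [show pz _ w = pz (Var.oe hj).smo (pz (Var.smo hf) w) from
        Subtype.ext (pb_comp _ _ _)] at this
    · have := hc W (fun x => f (i x)) fun x => (hf _).trans (hi x)
      rwa [show pz _ w = pz (Var.smo hi) (pz (Var.smo hf) w) from
        Subtype.ext (pb_comp _ _ _)] at this

end P275LF
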